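import Vale.Agent.P050.R2.H300.Path

set_option linter.all false

/-!
Dense targets: basic facts about `Phi`.
-/

open MeasureTheory Finset

namespace Vale.Agent.P050.Dense

open Vale.Agent.P050

section tele

/-- ordered telescoping of a product -/
theorem prod_add_ord {ι : Type*} [DecidableEq ι] (o : ι → ℕ) (ho : Function.Injective o)
    (s : Finset ι) (f g : ι → ℝ) :
    ∏ i ∈ s, (f i + g i) = ∏ i ∈ s, f i +
      ∑ i ∈ s, g i * (∏ j ∈ s.filter (fun j => o j < o i), (f j + g j)) *
        ∏ j ∈ s.filter (fun j => o i < o j), f j := by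
  induction s using Finset.induction_on_max_value o with
  | empty => simp
  | insert a s ha hmax ih =>
    have hlt : ∀ x ∈ s, o x < o a := by
      intro x hx
      refine lt_of_le_of_ne (hmax x hx) fun h => ?_
      exact ha (ho h ▸ hx)
    rw [Finset.prod_insert ha, Finset.prod_insert ha, Finset.sum_insert ha]
    have e1 : (insert a s).filter (fun j => o j < o a) = s := by
      ext j
      simp only [Finset.mem_filter, Finset.mem_insert]
      constructor
      · rintro ⟨rfl | h, h'⟩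
        · exact absurd h' (lt_irrefl _)
        · exact h
      · exact fun h => ⟨Or.inr h, hlt j h⟩
    have e2 : (insert a s).filter (fun j => o a < o j) = ∅ := by
      ext j
      simp only [Finset.mem_filter, Finset.mem_insert, Finset.notMem_empty, iff_false, not_and]
      rintro (rfl | h)
      · exact lt_irrefl _
      · exact not_lt.2 (hlt j h).le
    have e3 : ∀ i ∈ s, (insert a s).filter (fun j => o j < o i) =
        s.filter (fun j => o j < o i) := by
      intro i hi
      ext j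
      simp only [Finset.mem_filter, Finset.mem_insert]
      constructor
      · rintro ⟨rfl | h, h'⟩
        · exact absurd h' (not_lt.2 (hlt i hi).le)
        · exact ⟨h, h'⟩
      · exact fun h => ⟨Or.inr h.1, h.2⟩
    have e4 : ∀ i ∈ s, ∏ j ∈ (insert a s).filter (fun j => o i < o j), f j =
        f a * ∏ j ∈ s.filter (fun j => o i < o j), f j := by
      intro i hi
      have : (insert a s).filter (fun j => o i < o j) =
          insert a (s.filter (fun j => o i < o j)) := by
        ext j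
        simp only [Finset.mem_filter, Finset.mem_insert]
        constructor
        · rintro ⟨rfl | h, h'⟩
          · exact Or.inl rfl
          · exact Or.inr ⟨h, h'⟩
        · rintro (rfl | h)
          · exact ⟨Or.inl rfl, hlt i hi⟩
          · exact ⟨Or.inr h.1, h.2⟩
      rw [this, Finset.prod_insert]
      exact fun h => ha (Finset.mem_filter.1 h).1
    rw [e1, e2, Finset.prod_empty, mul_one]
    have e5 : ∑ i ∈ s, g i * (∏ j ∈ (insert a s).filter (fun j => o j < o i), (f j + g j)) *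
        ∏ j ∈ (insert a s).filter (fun j => o i < o j), f j =
        f a * ∑ i ∈ s, g i * (∏ j ∈ s.filter (fun j => o j < o i), (f j + g j)) *
        ∏ j ∈ s.filter (fun j => o i < o j), f j := by
      rw [Finset.mul_sum]
      refine Finset.sum_congr rfl fun i hi => ?_
      rw [e3 i hi, e4 i hi]
      ring
    rw [e5]
    linear_combination (f a) * ih

end tele

section

variable {V : Type*} [Fintype V] [DecidableEq V] {Ω : Type*} [MeasurableSpace Ω]
variable (μ : Measure Ω) [IsProbabilityMeasure μ] {U : Sym2 Ω → ℝ} {κ η : ℝ}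

theorem Ker.one_add_nonneg {μ : Measure Ω} (hU : Ker μ U κ η) (e : Sym2 Ω) : 0 ≤ 1 + U e := by
  have := (abs_le.1 (hU.good.bdd e)).1
  linarith

theorem Ker.one_add_le {μ : Measure Ω} (hU : Ker μ U κ η) (e : Sym2 Ω) : 1 + U e ≤ 1 + η := by
  have := hU.top e
  linarith

/-- products of factors between coordinates and an additional point -/
theorem bm_prod (hU : Good U 1) (S : Finset V) :
    BM (fun q : (V → Ω) × Ω => ∏ a ∈ S, (1 + U s(q.1 a, q.2))) := by
  refine BM.finprod S fun a _ => (BM.const 1).add ?_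
  exact hU.bm_two.comp (g := fun q : (V → Ω) × Ω => (q.1 a, q.2)) (by fun_prop)

theorem bm_prod_at (hU : Good U 1) (S : Finset V) (z : V → Ω) :
    BM (fun y : Ω => ∏ a ∈ S, (1 + U s(z a, y))) :=
  (bm_prod hU S).comp (g := fun y : Ω => (z, y)) (by fun_prop)

/-- products of factors between coordinates -/
theorem bm_prod_v (hU : Good U 1) (S : Finset V) (b : V) :
    BM (fun z : V → Ω => ∏ a ∈ S, (1 + U s(z a, z b))) :=
  (bm_prod hU S).comp (g := fun z : V → Ω => (z, z b)) (by fun_prop)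

theorem bm_Phi (hU : Good U 1) (N : V → Finset V) (S : Finset V) (b : V) :
    BM (Phi μ U N S b) :=
  ((bm_prod hU (N b \ S)).sub (BM.const 1)).integral_right μ

/-- `Phi` depends only on the coordinates in `N b \ S` -/
theorem Phi_ind (N : V → Finset V) (S : Finset V) (b : V) {v : V} (hv : v ∉ N b \ S) :
    Ind v (Phi μ U N S b) := by
  intro x t
  unfold Phi
  congr 1
  ext y
  congr 1
  refine Finset.prod_congr rfl fun a ha => ?_
  have : a ≠ v := fun h => hv (h ▸ ha)
  rw [Function.update_of_ne this]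

theorem prod_nonneg' {μ : Measure Ω} (hU : Ker μ U κ η) (S : Finset V) (z : V → Ω) (y : Ω) :
    0 ≤ ∏ a ∈ S, (1 + U s(z a, y)) :=
  Finset.prod_nonneg fun a _ => hU.one_add_nonneg _

theorem prod_le' {μ : Measure Ω} (hU : Ker μ U κ η) (S : Finset V) (z : V → Ω) (y : Ω) :
    ∏ a ∈ S, (1 + U s(z a, y)) ≤ (1 + η) ^ S.card := by
  calc ∏ a ∈ S, (1 + U s(z a, y)) ≤ ∏ _a ∈ S, (1 + η) :=
        Finset.prod_le_prod (fun a _ => hU.one_add_nonneg _) fun a _ => hU.one_add_le _
    _ = (1 + η) ^ S.card := by simp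

theorem pow_le_two {D : ℕ} {σ : ℝ} (hη : 0 ≤ η) (hn : Num D κ η σ) {n : ℕ} (h : n ≤ D) :
    (1 + η) ^ n ≤ 2 :=
  (pow_le_pow_right₀ (by linarith) h).trans hn.η2

/-- every partial product is between `0` and `2` -/
theorem prod_le_two {μ : Measure Ω} (hU : Ker μ U κ η) {D : ℕ} {σ : ℝ} (hn : Num D κ η σ)
    {S : Finset V} (hS : S.card ≤ D) (z : V → Ω) (y : Ω) :
    ∏ a ∈ S, (1 + U s(z a, y)) ≤ 2 :=
  (prod_le' hU S z y).trans (pow_le_two hU.η0 hn hS)

theorem abs_prod_sub_one_le {μ : Measure Ω} (hU : Ker μ U κ η) (S : Finset V) (z : V → Ω)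
    (y : Ω) : |(∏ a ∈ S, (1 + U s(z a, y))) - 1| ≤ (1 + η) ^ S.card * ∑ a ∈ S, |U s(z a, y)| := by
  have hη := hU.η0
  induction S using Finset.induction_on with
  | empty => simp
  | insert a S ha ih =>
    rw [Finset.prod_insert ha, Finset.sum_insert ha, Finset.card_insert_of_notMem ha]
    set P := ∏ a ∈ S, (1 + U s(z a, y)) with hP
    have hP0 : 0 ≤ P := prod_nonneg' hU S z y
    have hP1 : P ≤ (1 + η) ^ S.card := prod_le' hU S z y
    have hpow : (1:ℝ) ≤ 1 + η := by linarith
    have hle : (1 + η) ^ S.card ≤ (1 + η) ^ (S.card + 1) :=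
      pow_le_pow_right₀ hpow (Nat.le_succ _)
    have hs0 : 0 ≤ ∑ a ∈ S, |U s(z a, y)| := Finset.sum_nonneg fun _ _ => abs_nonneg _
    have e : (1 + U s(z a, y)) * P - 1 = U s(z a, y) * P + (P - 1) := by ring
    rw [e]
    calc |U s(z a, y) * P + (P - 1)| ≤ |U s(z a, y) * P| + |P - 1| := abs_add_le _ _
      _ ≤ |U s(z a, y)| * (1 + η) ^ S.card + (1 + η) ^ S.card * ∑ a ∈ S, |U s(z a, y)| := by
          rw [abs_mul, abs_of_nonneg hP0]
          exact add_le_add (mul_le_mul_of_nonneg_left hP1 (abs_nonneg _)) ih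
      _ = (1 + η) ^ S.card * (|U s(z a, y)| + ∑ a ∈ S, |U s(z a, y)|) := by ring
      _ ≤ (1 + η) ^ (S.card + 1) * (|U s(z a, y)| + ∑ a ∈ S, |U s(z a, y)|) :=
          mul_le_mul_of_nonneg_right hle (add_nonneg (abs_nonneg _) hs0)

theorem bm_absU (hU : Good U 1) (t : Ω) : BM (fun y : Ω => |U s(t, y)|) :=
  (hU.bm_two.comp (g := fun y : Ω => (t, y)) (by fun_prop)).abs

/-- the sup bound of `Phi`, also after removal of neighbours -/
theorem abs_Phi_le' (hU : Ker μ U κ η) {D : ℕ} {σ : ℝ} (hn : Num D κ η σ)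
    {N : V → Finset V} {b : V} (hb : (N b).card ≤ D) (S : Finset V) (z : V → Ω) :
    |Phi μ U N S b z| ≤ σ := by
  have hη := hU.η0
  have hκ := hU.κ0
  have hc : (N b \ S).card ≤ D := (Finset.card_le_card Finset.sdiff_subset).trans hb
  unfold Phi
  have h1 : |∫ y, ((∏ a ∈ N b \ S, (1 + U s(z a, y))) - 1) ∂μ| ≤
      ∫ y, |(∏ a ∈ N b \ S, (1 + U s(z a, y))) - 1| ∂μ := abs_integral_le_integral_abs
  have hbs : BM (fun y : Ω => ∑ a ∈ N b \ S, |U s(z a, y)|) :=
    BM.finsum _ fun a _ => bm_absU hU.good (z a)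
  have h2 : ∫ y, |(∏ a ∈ N b \ S, (1 + U s(z a, y))) - 1| ∂μ ≤
      ∫ y, 2 * ∑ a ∈ N b \ S, |U s(z a, y)| ∂μ := by
    apply integral_mono
    · exact ((((bm_prod_at hU.good (N b \ S) z)).sub (BM.const 1)).abs).integrable _
    · exact ((BM.const 2).mul hbs).integrable _
    · intro y
      refine (abs_prod_sub_one_le hU (N b \ S) z y).trans ?_
      exact mul_le_mul_of_nonneg_right (pow_le_two hη hn hc)
        (Finset.sum_nonneg fun _ _ => abs_nonneg _)
  have h3 : ∫ y, 2 * ∑ a ∈ N b \ S, |U s(z a, y)| ∂μ =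
      2 * ∑ a ∈ N b \ S, ∫ y, |U s(z a, y)| ∂μ := by
    rw [integral_const_mul, integral_finset_sum]
    intro a _
    exact (bm_absU hU.good (z a)).integrable _
  have h4 : ∑ a ∈ N b \ S, ∫ y, |U s(z a, y)| ∂μ ≤ ∑ _a ∈ N b \ S, κ :=
    Finset.sum_le_sum fun a _ => hU.l1 (z a)
  rw [Finset.sum_const, nsmul_eq_mul] at h4
  have h5 : ((N b \ S).card : ℝ) * κ ≤ D * κ :=
    mul_le_mul_of_nonneg_right (by exact_mod_cast hc) hκ
  have h6 := hn.σκ
  rw [h3] at h2
  linarith

theorem abs_Phi_le (hU : Ker μ U κ η) {D : ℕ} {σ : ℝ} (hn : Num D κ η σ)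
    {N : V → Finset V} {B : Finset V} (hN : Bip N B D) {b : V} (hb : b ∈ B) (S : Finset V)
    (z : V → Ω) : |Phi μ U N S b z| ≤ σ :=
  abs_Phi_le' μ hU hn (hN.dB b hb) S z

/-- removing a neighbour from `Phi` -/
theorem Phi_split (hU : Ker μ U κ η) (N : V → Finset V) (S : Finset V) {b a : V}
    (ha : a ∈ N b) (haS : a ∉ S) (z : V → Ω) :
    Phi μ U N S b z = Phi μ U N (insert a S) b z +
      ∫ y, U s(z a, y) * ∏ c ∈ N b \ insert a S, (1 + U s(z c, y)) ∂μ := by
  unfold Phi
  have hins : N b \ S = insert a (N b \ insert a S) := by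
    ext c
    simp only [Finset.mem_sdiff, Finset.mem_insert, not_or]
    constructor
    · rintro ⟨h1, h2⟩
      by_cases hc : c = a
      · exact Or.inl hc
      · exact Or.inr ⟨h1, hc, h2⟩
    · rintro (rfl | ⟨h1, _, h2⟩)
      · exact ⟨ha, haS⟩
      · exact ⟨h1, h2⟩
  have hna : a ∉ N b \ insert a S := by simp
  have hb1 := ((bm_prod_at hU.good (N b \ insert a S) z)).sub (BM.const 1)
  have hb2 : BM (fun y : Ω => U s(z a, y) * ∏ c ∈ N b \ insert a S, (1 + U s(z c, y))) :=
    (hU.good.bm_two.comp (g := fun y : Ω => (z a, y)) (by fun_prop)).mul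
      (bm_prod_at hU.good (N b \ insert a S) z)
  rw [← integral_add (hb1.integrable _) (hb2.integrable _)]
  congr 1
  ext y
  rw [hins, Finset.prod_insert hna]
  ring

/-- at most one remaining neighbour -/
theorem Phi_eq_zero (hU : Ker μ U κ η) (N : V → Finset V) (S : Finset V) {b : V}
    (h : (N b \ S).card ≤ 1) (z : V → Ω) : Phi μ U N S b z = 0 := by
  unfold Phi
  rcases Nat.lt_or_ge (N b \ S).card 1 with h0 | h1
  · have : N b \ S = ∅ := Finset.card_eq_zero.1 (by omega)
    rw [this]; simp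
  · obtain ⟨a, ha⟩ := Finset.card_eq_one.1 (le_antisymm h h1)
    rw [ha]
    simp only [Finset.prod_singleton, add_sub_cancel_left]
    exact hU.zero (z a)

/-- the last neighbour: if only `a` and `a'` remain -/
theorem one_add_Phi_nonneg (hU : Ker μ U κ η) {D : ℕ} {σ : ℝ} (hn : Num D κ η σ)
    {N : V → Finset V} {b : V} (hb : (N b).card ≤ D) (S : Finset V) (z : V → Ω) :
    7 / 8 ≤ 1 + Phi μ U N S b z := by
  have h1 := abs_le.1 (abs_Phi_le' μ hU hn hb S z)
  have h2 := hn.σ1
  linarith [h1.1]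

/-! ### coordinates -/

/-- zero marginals -/
theorem int_edge_zero (hU : Ker μ U κ η) {u v : V} (huv : u ≠ v) {f : (V → Ω) → ℝ} (hf : BM f)
    (hi : Ind v f) : ∫ z, U s(z u, z v) * f z ∂(piM V μ) = 0 := by
  have h1 : ∫ z, U s(z v, z u) * f z ∂(piM V μ) = ∫ z, degf μ U (z u) * f z ∂(piM V μ) :=
    leaf_elim μ hU.good (Ne.symm huv) hf hi
  have h2 : ∀ z : V → Ω, U s(z u, z v) = U s(z v, z u) := fun z => by rw [Sym2.eq_swap]
  simp only [h2]
  rw [h1]
  have h3 : ∀ s, degf μ U s = 0 := fun s => hU.zero s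
  simp [h3]

/-- an inner integral is the integral over a new coordinate -/
theorem int_fresh {v : V} {f : (V → Ω) → ℝ} (hf : BM f) (hi : Ind v f)
    {h : (V → Ω) → Ω → ℝ} (hh : BM (fun q : (V → Ω) × Ω => h q.1 q.2))
    (hhi : ∀ z t y, h (Function.update z v t) y = h z y) :
    ∫ z, f z * (∫ y, h z y ∂μ) ∂(piM V μ) = ∫ z, f z * h z (z v) ∂(piM V μ) := by
  have hb : BM (fun z : V → Ω => f z * h z (z v)) :=
    hf.mul (hh.comp (g := fun z : V → Ω => (z, z v)) (by fun_prop))
  rw [integral_update μ v hb]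
  congr 1
  ext z
  have e : ∀ t, f (Function.update z v t) * h (Function.update z v t)
      (Function.update z v t v) = f z * h z t := by
    intro t
    rw [hi z t, Function.update_self, hhi]
  simp only [e]
  rw [integral_const_mul]

/-! ### decorations -/

theorem bm_Rdec (hU : Good U 1) (N : V → Finset V) (o : V → ℕ) (b a' a : V) :
    BM (Rdec U N o b a' a) := bm_prod_v hU _ b

theorem Rdec_ind (N : V → Finset V) (o : V → ℕ) {b a' a v : V} (hvb : v ≠ b)
    (hv : ¬ (v ∈ N b ∧ v ≠ a' ∧ o v < o a)) : Ind v (Rdec U N o b a' a) := by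
  intro x t
  unfold Rdec
  refine Finset.prod_congr rfl fun c hc => ?_
  rw [Finset.mem_filter, Finset.mem_erase] at hc
  have : c ≠ v := by
    rintro rfl
    exact hv ⟨hc.1.2, hc.1.1, hc.2⟩
  rw [Function.update_of_ne this, Function.update_of_ne (Ne.symm hvb)]

theorem Rdec_nonneg {μ : Measure Ω} (hU : Ker μ U κ η) (N : V → Finset V) (o : V → ℕ)
    (b a' a : V) (z : V → Ω) : 0 ≤ Rdec U N o b a' a z :=
  Finset.prod_nonneg fun c _ => hU.one_add_nonneg _

theorem Rdec_le {μ : Measure Ω} (hU : Ker μ U κ η) {D : ℕ} {σ : ℝ} (hn : Num D κ η σ)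
    {N : V → Finset V} (o : V → ℕ) {b : V} (hb : (N b).card ≤ D) (a' a : V) (z : V → Ω) :
    Rdec U N o b a' a z ≤ 2 := by
  refine prod_le_two hU hn ?_ z (z b)
  exact ((Finset.card_le_card (Finset.filter_subset _ _)).trans
    (Finset.card_le_card (Finset.erase_subset _ _))).trans hb

theorem abs_Rdec_le {μ : Measure Ω} (hU : Ker μ U κ η) {D : ℕ} {σ : ℝ} (hn : Num D κ η σ)
    {N : V → Finset V} (o : V → ℕ) {b : V} (hb : (N b).card ≤ D) (a' a : V) (z : V → Ω) :
    |Rdec U N o b a' a z| ≤ 2 := by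
  rw [abs_of_nonneg (Rdec_nonneg hU N o b a' a z)]
  exact Rdec_le hU hn o hb a' a z

theorem bm_U (hU : Good U 1) (u v : V) : BM (fun z : V → Ω => U s(z u, z v)) := by
  have := hU.bm_edge (V := V) s(u, v)
  simpa using this

theorem bm_core (hU : Good U 1) (N : V → Finset V) (o : V → ℕ) (a₀ : V) (L : List (V × V)) :
    BM (core U N o a₀ L) := by
  induction L with
  | nil => exact BM.const 1
  | cons x L ih =>
    obtain ⟨b, a⟩ := x
    exact (((bm_U hU (lastA a₀ L) b).mul (bm_U hU b a)).mul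
      (bm_Rdec hU N o b (lastA a₀ L) a)).mul ih

theorem bm_JJ (hU : Good U 1) (N : V → Finset V) (o : V → ℕ) (fl : Bool) (γ : Finset V) (a₀ : V)
    (L : List (V × V)) : BM (JJ μ U N o fl γ a₀ L) :=
  (bm_core hU N o a₀ L).mul (BM.finprod _ fun b _ => bm_Phi μ hU N _ b)

end

end Vale.Agent.P050.Dense
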