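import Vale.Agent.P050.Bdl.B1

set_option linter.all false

/-!
Dense targets: definitions.

`V` = vertices of the graph `H`, `B` = one side of the bipartition, `N b` = the neighbours
of `b` in `B`; the kernel is `1 + U` with `U : Sym2 Ω → ℝ` having zero marginals.
-/

open MeasureTheory Finset

namespace Vale.Agent.P050.Dense

open Vale.Agent.P050

/-! ### connected subsets of the vertex set of a graph -/

section graph

variable {V : Type*} [Fintype V] [DecidableEq V]

/-- the graph `G` restricted to the edges inside `S` -/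
def Gr (G : SimpleGraph V) (S : Finset V) : SimpleGraph V where
  Adj u v := G.Adj u v ∧ u ∈ S ∧ v ∈ S
  symm := ⟨fun _ _ h => ⟨h.1.symm, h.2.2, h.2.1⟩⟩
  loopless := ⟨fun _ h => G.loopless.irrefl _ h.1⟩

/-- nonempty connected vertex sets -/
def Cn (G : SimpleGraph V) (S : Finset V) : Prop :=
  S.Nonempty ∧ ∀ u ∈ S, ∀ v ∈ S, (Gr G S).Reachable u v

/-- every vertex of `S` is connected to `R` inside `S ∪ R` -/
def Rtd (G : SimpleGraph V) (R S : Finset V) : Prop :=
  ∀ s ∈ S, ∃ r ∈ R, (Gr G (S ∪ R)).Reachable s r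

open scoped Classical in
/-- closed neighbourhood of `S` inside `B` -/
noncomputable def cl (G : SimpleGraph V) (B S : Finset V) : Finset V :=
  B.filter (fun b => b ∈ S ∨ ∃ s ∈ S, G.Adj b s)

open scoped Classical in
/-- the neighbours of `b` in `B` -/
noncomputable def nbr (G : SimpleGraph V) (B : Finset V) (b : V) : Finset V :=
  B.filter (fun b' => G.Adj b b')

open scoped Classical in
/-- the connected subsets of `B` with the property `P` -/
noncomputable def cnS (G : SimpleGraph V) (B : Finset V) (P : Finset V → Prop) :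
    Finset (Finset V) :=
  B.powerset.filter (fun γ => Cn G γ ∧ P γ)

open scoped Classical in
/-- the subsets of `B` outside `R` which are rooted at `R` -/
noncomputable def rtS (G : SimpleGraph V) (B R : Finset V) : Finset (Finset V) :=
  (B \ R).powerset.filter (fun S => Rtd G R S)

open scoped Classical in
/-- the vertices of `B` which have `a` as a neighbour -/
noncomputable def TT (N : V → Finset V) (B : Finset V) (a : V) : Finset V :=
  B.filter (fun b => a ∈ N b)

/-- two vertices `b`, `b'` are adjacent when they have a common neighbour -/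
def BG (N : V → Finset V) : SimpleGraph V :=
  SimpleGraph.fromRel (fun b b' => (N b ∩ N b').Nonempty)

/-- the edges of the bipartite graph at the vertices of `γ` -/
def HG (N : V → Finset V) (γ : Finset V) : SimpleGraph V :=
  SimpleGraph.fromRel (fun b a => b ∈ γ ∧ a ∈ N b)

/-- all cycles of the graph `HG N γ` have length at least `2 k` -/
def GC (N : V → Finset V) (γ : Finset V) (k : ℕ) : Prop :=
  ∀ (v : V) (c : (HG N γ).Walk v v), c.IsCycle → 2 * k ≤ c.length

/-- `γ` is the `B`-side of a shortest cycle, of length `2 k`, of `HG N γ` -/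
def CycP (N : V → Finset V) (γ : Finset V) (k : ℕ) : Prop :=
  2 ≤ k ∧ γ.card = k ∧ GC N γ k ∧
    ∃ (v : V) (c : (HG N γ).Walk v v), c.IsCycle ∧ c.length = 2 * k

open scoped Classical in
/-- the neighbours of `b` which have another neighbour in `γ` -/
noncomputable def sh (N : V → Finset V) (γ : Finset V) (b : V) : Finset V :=
  (N b).filter (fun a => ∃ b' ∈ γ, b' ≠ b ∧ a ∈ N b')

/-- every vertex of `γ` has at least two neighbours shared with other vertices of `γ` -/
def Thick (N : V → Finset V) (γ : Finset V) : Prop :=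
  ∀ b ∈ γ, 2 ≤ (sh N γ b).card

/-- `B` is one side of a bipartite graph of maximum degree at most `D` -/
structure Bip (N : V → Finset V) (B : Finset V) (D : ℕ) : Prop where
  out : ∀ b ∈ B, ∀ a ∈ N b, a ∉ B
  dB : ∀ b ∈ B, (N b).card ≤ D
  dA : ∀ a, (B.filter (fun b => a ∈ N b)).card ≤ D

end graph

/-! ### kernels -/

section kernel

variable {V : Type*} [Fintype V] [DecidableEq V] {Ω : Type*} [MeasurableSpace Ω]

/-- standing assumptions: `1 + U` is a kernel with all marginals `1`, close to `1` -/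
structure Ker (μ : Measure Ω) (U : Sym2 Ω → ℝ) (κ η : ℝ) : Prop where
  good : Good U 1
  zero : ∀ s, ∫ t, two U s t ∂μ = 0
  κ0 : 0 ≤ κ
  η0 : 0 ≤ η
  l1 : ∀ s, ∫ t, |two U s t| ∂μ ≤ κ
  top : ∀ e, U e ≤ η

/-- the interaction of the neighbours of `b` outside `S`, after integration over the vertex `b` -/
noncomputable def Phi (μ : Measure Ω) (U : Sym2 Ω → ℝ) (N : V → Finset V) (S : Finset V) (b : V)
    (z : V → Ω) : ℝ :=
  ∫ y, ((∏ a ∈ N b \ S, (1 + U s(z a, y))) - 1) ∂μ

/-- the activity of a set `γ` of vertices -/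
noncomputable def phi (μ : Measure Ω) (U : Sym2 Ω → ℝ) (N : V → Finset V) (γ : Finset V) : ℝ :=
  ∫ z, ∏ b ∈ γ, Phi μ U N ∅ b z ∂(piM V μ)

/-- the activity with a function of the vertex `a` -/
noncomputable def phig (μ : Measure Ω) (U : Sym2 Ω → ℝ) (N : V → Finset V) (g : Ω → ℝ) (a : V)
    (γ : Finset V) : ℝ :=
  ∫ z, g (z a) * ∏ b ∈ γ, Phi μ U N ∅ b z ∂(piM V μ)

/-- the partition function -/
noncomputable def ZZ (μ : Measure Ω) (U : Sym2 Ω → ℝ) (N : V → Finset V) (Λ : Finset V) : ℝ :=
  ∫ z, ∏ b ∈ Λ, (1 + Phi μ U N ∅ b z) ∂(piM V μ)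

/-- the partition function with a function of the vertex `a` -/
noncomputable def ZZg (μ : Measure Ω) (U : Sym2 Ω → ℝ) (N : V → Finset V) (g : Ω → ℝ) (a : V)
    (Λ : Finset V) : ℝ :=
  ∫ z, g (z a) * ∏ b ∈ Λ, (1 + Phi μ U N ∅ b z) ∂(piM V μ)

/-- the total gain: sum over the cycle polymers -/
noncomputable def GG (μ : Measure Ω) (U : Sym2 Ω → ℝ) (N : V → Finset V) (B : Finset V)
    (ε : ℝ) : ℝ :=
  ∑ γ ∈ cnS (BG N) B (fun γ => CycP N γ γ.card), Real.exp (-(ε * γ.card)) * ck μ U γ.card

/-- numerical requirements: `(1 + η) ^ D ≤ 2` and `2 D κ ≤ σ`, `σ` is the sup bound of `Phi` -/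
structure Num (D : ℕ) (κ η σ : ℝ) : Prop where
  hD : 1 ≤ D
  η2 : (1 + η) ^ D ≤ 2
  σκ : 2 * D * κ ≤ σ
  σ0 : 0 ≤ σ
  σ1 : σ ≤ 1 / 8

end kernel

/-! ### finite kernels -/

section fin

variable {V : Type*} [Fintype V] [DecidableEq V] {X : Type*} [Fintype X]

/-- the density of `H` in the finite kernel `W` -/
noncomputable def tden (H : SimpleGraph V) [DecidableRel H.Adj] (W : X → X → ℝ)
    (hs : ∀ x y, W x y = W y x) : ℝ :=
  (∑ z : V → X, ∏ e ∈ H.edgeFinset, ev W hs z e) / (Fintype.card X : ℝ) ^ Fintype.card V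

/-- the edge density of the finite kernel `W` -/
noncomputable def pden (W : X → X → ℝ) : ℝ :=
  (∑ x, ∑ y, W x y) / (Fintype.card X : ℝ) ^ 2

end fin

end Vale.Agent.P050.Dense
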