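import Vale.Agent.P050.R2.H300.Main

set_option linter.all false

/-!
Dense targets: kernels and graphs of large edge density.
-/

open MeasureTheory Finset

namespace Vale.Agent.P050.Dense

open Vale.Agent.P050

/-- no edges -/
theorem edgeFinset_eq_empty {V : Type} [Fintype V] [DecidableEq V] (H : SimpleGraph V)
    [DecidableRel H.Adj] (hD : ∀ v, H.degree v ≤ 0) : H.edgeFinset = ∅ := by
  rw [Finset.eq_empty_iff_forall_notMem]
  intro e
  induction e with
  | h u v =>
    intro he
    rw [SimpleGraph.mem_edgeFinset, SimpleGraph.mem_edgeSet] at he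
    have h2 : 0 < H.degree u := by
      rw [SimpleGraph.degree_pos_iff_exists_adj]
      exact ⟨v, he⟩
    have h3 := hD u
    omega

/-- all finite kernels of large mean -/
theorem dense_kernel' {V X : Type} [Fintype V] [DecidableEq V] [Fintype X] [Nonempty X]
    (H : SimpleGraph V) [DecidableRel H.Adj] (hH : H.IsBipartite) {D : ℕ}
    (hD : ∀ v, H.degree v ≤ D)
    (W : X → X → ℝ) (hs : ∀ x y, W x y = W y x) (h0 : ∀ x y, 0 ≤ W x y)
    (h1 : ∀ x y, W x y ≤ 1) {ε : ℝ} (hε0 : 0 ≤ ε) (hε : ε * (12 * 10 ^ 9 * (D:ℝ) ^ 12) ≤ 1)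
    (hp : 1 - ε ≤ pden W) :
    pden W ^ H.edgeFinset.card ≤ tden H W hs := by
  classical
  rcases Nat.eq_zero_or_pos D with h | hD1
  · have he : H.edgeFinset = ∅ := edgeFinset_eq_empty H (fun v => h ▸ hD v)
    unfold tden
    rw [he]
    simp only [Finset.card_empty, pow_zero, Finset.prod_empty, Finset.sum_const, nsmul_eq_mul,
      mul_one]
    rw [Finset.card_univ, Fintype.card_fun]
    push_cast
    rw [div_self]
    positivity
  · have hDpos : (1:ℝ) ≤ D := by exact_mod_cast hD1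
    have hD11 : (1:ℝ) ≤ (D:ℝ) ^ 11 := one_le_pow₀ hDpos
    have h12 : (D:ℝ) ^ 12 = (D:ℝ) ^ 11 * D := by ring
    refine remove_rows H hD (θ := 1 / (10 ^ 9 * (D:ℝ) ^ 11)) (ε := ε) hε0 ?_ ?_ ?_ W hs h0 h1 hp
    · rw [le_div_iff₀ (by positivity)]
      calc 12 * (D:ℝ) * ε * (10 ^ 9 * (D:ℝ) ^ 11) = ε * (12 * 10 ^ 9 * (D:ℝ) ^ 12) := by ring
        _ ≤ 1 := hε
    · refine le_trans ?_ hε
      have h4 : (D:ℝ) ≤ (D:ℝ) ^ 12 := by rw [h12]; nlinarith
      have h5 : 8 * (D:ℝ) ≤ 12 * 10 ^ 9 * (D:ℝ) ^ 12 := by nlinarith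
      calc 8 * (D:ℝ) * ε = ε * (8 * (D:ℝ)) := by ring
        _ ≤ ε * (12 * 10 ^ 9 * (D:ℝ) ^ 12) := mul_le_mul_of_nonneg_left h5 hε0
    · intro n W' hs' hn' h0' h1' hr
      have : Nonempty (Fin n) := ⟨⟨0, hn'⟩⟩
      refine rows_good H hH hD1 hD W' hs' h0' h1' ?_
      intro x
      rw [Fintype.card_fin]
      exact hr x

theorem eps_ok (D : ℕ) : 1 / (10 * (D:ℝ)) ^ 12 * (12 * 10 ^ 9 * (D:ℝ) ^ 12) ≤ 1 := by
  rcases Nat.eq_zero_or_pos D with h | hD1
  · subst h; norm_num
  · have hDpos : (1:ℝ) ≤ D := by exact_mod_cast hD1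
    rw [div_mul_eq_mul_div, div_le_one (by positivity)]
    have : (10 * (D:ℝ)) ^ 12 = 10 ^ 12 * (D:ℝ) ^ 12 := by ring
    rw [this]
    have h3 : 0 ≤ (D:ℝ) ^ 12 := by positivity
    nlinarith

/-- all finite kernels of large mean -/
theorem dense_kernel {V X : Type} [Fintype V] [DecidableEq V] [Fintype X] [Nonempty X]
    (H : SimpleGraph V) [DecidableRel H.Adj] (hH : H.IsBipartite) {D : ℕ}
    (hD : ∀ v, H.degree v ≤ D)
    (W : X → X → ℝ) (hs : ∀ x y, W x y = W y x) (h0 : ∀ x y, 0 ≤ W x y)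
    (h1 : ∀ x y, W x y ≤ 1) (hp : 1 - 1 / (10 * (D:ℝ)) ^ 12 ≤ pden W) :
    pden W ^ H.edgeFinset.card ≤ tden H W hs :=
  dense_kernel' H hH hD W hs h0 h1 (by positivity) (eps_ok D) hp

theorem sum_hom' {V X : Type} [Fintype V] [DecidableEq V] [Fintype X] (H : SimpleGraph V)
    [DecidableRel H.Adj] (G : SimpleGraph X) [DecidableRel G.Adj] (A : X → X → ℝ)
    (hA : ∀ s t, A s t = if G.Adj s t then 1 else 0) (hsymm : ∀ s t, A s t = A t s) :
    ∑ x : V → X, ∏ e ∈ H.edgeFinset, ev A hsymm x e = (Nat.card (H →g G) : ℝ) := by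
  classical
  have h1 : ∀ x : V → X, ∏ e ∈ H.edgeFinset, ev A hsymm x e =
      if (∀ u v, H.Adj u v → G.Adj (x u) (x v)) then 1 else 0 := by
    intro x
    split_ifs with h
    · refine Finset.prod_eq_one fun e he => ?_
      induction e with
      | h u v =>
        rw [SimpleGraph.mem_edgeFinset, SimpleGraph.mem_edgeSet] at he
        unfold ev
        rw [Sym2.lift_mk]
        simp only [hA, if_pos (h u v he)]
    · push Not at h
      obtain ⟨u, v, huv, hn⟩ := h
      refine Finset.prod_eq_zero (i := s(u, v)) ?_ ?_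
      · rw [SimpleGraph.mem_edgeFinset, SimpleGraph.mem_edgeSet]
        exact huv
      · unfold ev
        rw [Sym2.lift_mk]
        simp only [hA, if_neg hn]
  simp only [h1]
  rw [Finset.sum_boole]
  congr 1
  rw [Nat.card_eq_fintype_card, ← Fintype.card_subtype]
  exact Fintype.card_congr
    ⟨fun x => ⟨x.1, fun {u v} h => x.2 u v h⟩, fun f => ⟨f, fun u v h => f.map_rel h⟩,
      fun x => rfl, fun f => rfl⟩

/-- all finite graphs of large edge density -/
theorem dense_graph {V X : Type} [Finite V] [Finite X] [Nonempty X] (H : SimpleGraph V)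
    (G : SimpleGraph X) (hH : H.IsBipartite) (D : ℕ) (hdeg : ∀ v, (H.neighborSet v).ncard ≤ D)
    (hp : 1 - 1 / (10 * (D:ℝ)) ^ 12 ≤ edgeDensity G) :
    edgeDensity G ^ Nat.card H.edgeSet ≤ homDensity H G := by
  classical
  have := Fintype.ofFinite V
  have := Fintype.ofFinite X
  set A : X → X → ℝ := fun s t => if G.Adj s t then 1 else 0 with hA
  have hsymm : ∀ s t, A s t = A t s := by
    intro s t; simp only [hA, G.adj_comm]
  have hsumA : ∑ s, ∑ t, A s t = 2 * G.edgeFinset.card := by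
    have h1 : ∀ s, ∑ t, A s t = (G.degree s : ℝ) := by
      intro s
      simp only [hA]
      rw [sum_boole, ← SimpleGraph.card_neighborFinset_eq_degree]
      congr 2
      ext t
      simp only [mem_filter, mem_univ, true_and, SimpleGraph.mem_neighborFinset]
    simp only [h1]
    have := G.sum_degrees_eq_twice_card_edges
    exact_mod_cast this
  have hpe : pden A = edgeDensity G := by
    unfold pden edgeDensity
    rw [hsumA, Nat.card_eq_fintype_card (α := X), Nat.card_eq_fintype_card,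
      SimpleGraph.edgeFinset_card]
  have hm : Nat.card H.edgeSet = H.edgeFinset.card := by
    rw [Nat.card_eq_fintype_card, SimpleGraph.edgeFinset_card]
  have hhom : tden H A hsymm = homDensity H G := by
    unfold tden homDensity
    rw [sum_hom' H G A (fun s t => rfl) hsymm, Nat.card_eq_fintype_card (α := X),
      Nat.card_eq_fintype_card (α := V)]
  rw [hm, ← hhom, ← hpe]
  refine dense_kernel H hH (D := D) ?_ A hsymm ?_ ?_ (by rw [hpe]; exact hp)
  · intro v
    have := hdeg v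
    rw [Set.ncard_eq_toFinset_card'] at this
    rwa [← SimpleGraph.card_neighborFinset_eq_degree]
  · intro x y; simp only [hA]; split_ifs <;> norm_num
  · intro x y; simp only [hA]; split_ifs <;> norm_num

end Vale.Agent.P050.Dense
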