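import Vale.Agent.P050.R2.H300.Final
import Vale.Agent.P050.R3.H904.Meas
import Vale.Agent.P050.H753.Comb

set_option linter.all false

/-!
Dense targets: measurable kernels bounded from above by a constant close to their mean.
-/

open MeasureTheory Finset

namespace Vale.Agent.P050.Dense

open Vale.Agent.P050 Vale.Agent.P050.H753

theorem dense_measurable {V Ω : Type} [Fintype V] [DecidableEq V] [MeasurableSpace Ω]
    (H : SimpleGraph V) [DecidableRel H.Adj] (hH : H.IsBipartite) (μ : Measure Ω)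
    [IsProbabilityMeasure μ] (W : Ω → Ω → ℝ) (hW : ∀ s t, W s t = W t s)
    (hm : Measurable (Function.uncurry W)) {p : ℝ} (hp : 0 < p) {D : ℕ}
    (hD : ∀ v, H.degree v ≤ D) (hint : ∫ s, ∫ t, W s t ∂μ ∂μ = p)
    (hbd : ∀ᵐ z ∂(μ.prod μ), 0 ≤ W z.1 z.2 ∧ W z.1 z.2 ≤ (1 + 1 / (10 * (D:ℝ)) ^ 12) * p) :
    p ^ H.edgeFinset.card ≤ kernelDensity μ H W hW := by
  classical
  set c : ℝ := 1 / (10 * (D:ℝ)) ^ 12 with hc
  have hc0 : 0 ≤ c := by positivity
  set q : ℝ := (1 + c) * p with hq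
  have hq0 : 0 < q := by positivity
  set W' : Ω → Ω → ℝ := fun s t => q⁻¹ * W s t with hW'
  have hs' : ∀ s t, W' s t = W' t s := fun s t => by simp only [hW', hW s t]
  have hint' : ∫ s, ∫ t, W' s t ∂μ ∂μ = q⁻¹ * p := by
    simp only [hW', integral_const_mul, hint]
  have hqp : q⁻¹ * p = 1 / (1 + c) := by
    rw [hq]; field_simp
  -- the finite theorem with a slightly larger radius
  obtain ⟨δ', hδ, hδ0, hδ'⟩ : ∃ δ' : ℝ, c < δ' ∧ 0 ≤ δ' ∧ δ' * (12 * 10 ^ 9 * (D:ℝ) ^ 12) ≤ 1 := by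
    rcases Nat.eq_zero_or_pos D with h | hD1
    · refine ⟨1, ?_, zero_le_one, ?_⟩
      · rw [hc, h]; norm_num
      · rw [h]; norm_num
    · have hDpos : (1:ℝ) ≤ D := by exact_mod_cast hD1
      have hD12 : (0:ℝ) < (D:ℝ) ^ 12 := by positivity
      refine ⟨1 / (12 * 10 ^ 9 * (D:ℝ) ^ 12), ?_, by positivity, ?_⟩
      · rw [hc]
        apply one_div_lt_one_div_of_lt (by positivity)
        have : (10 * (D:ℝ)) ^ 12 = 10 ^ 12 * (D:ℝ) ^ 12 := by ring
        rw [this]
        nlinarith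
      · rw [one_div, inv_mul_cancel₀ (by positivity)]
  have key := measurable_of_finite H μ hδ
    (fun n W₁ hs₁ hn h0 h1 hp₁ => by
      have : Nonempty (Fin n) := ⟨⟨0, hn⟩⟩
      exact dense_kernel' H hH hD W₁ hs₁ h0 h1 hδ0 hδ' hp₁)
    W' hs' (hm.const_mul q⁻¹)
    (by
      filter_upwards [hbd] with z hz
      refine ⟨mul_nonneg (by positivity) hz.1, ?_⟩
      calc q⁻¹ * W z.1 z.2 ≤ q⁻¹ * q := mul_le_mul_of_nonneg_left hz.2 (by positivity)
        _ = 1 := inv_mul_cancel₀ hq0.ne')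
    (by
      rw [hint', hqp, le_div_iff₀ (by positivity)]
      nlinarith)
  rw [hint'] at key
  have hprod : ∀ x : V → Ω, ∏ e ∈ H.edgeFinset, ev W' hs' x e =
      (q⁻¹) ^ H.edgeFinset.card * ∏ e ∈ H.edgeFinset, ev W hW x e := by
    intro x
    rw [← Finset.prod_const, ← Finset.prod_mul_distrib]
    refine Finset.prod_congr rfl fun e _ => ?_
    induction e with
    | h u v => rfl
  simp only [hprod] at key
  rw [integral_const_mul, mul_pow] at key
  have hqm : 0 < (q⁻¹) ^ H.edgeFinset.card := by positivity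
  exact le_of_mul_le_mul_left key hqm

end Vale.Agent.P050.Dense
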