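import Vale.Agent.P050.R2.H300.Defs

set_option linter.all false

/-!
Dense targets: the adaptive path expansion, definitions.

A path `a₀ b₁ a₁ b₂ a₂ … b_j a_j` (`b_i` in `γ`, `a_i` on the other side) is stored as the
vertex `a₀` and the list `[(b_j, a_j), …, (b₁, a₁)]`, last step first.
`o` is an injective numbering of the vertices, used for the telescoping of products.
-/

open MeasureTheory Finset

namespace Vale.Agent.P050.Dense

open Vale.Agent.P050

section

variable {V : Type*} [Fintype V] [DecidableEq V]

/-- the end of the path -/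
def lastA (a₀ : V) : List (V × V) → V
  | [] => a₀
  | (_, a) :: _ => a

/-- the `γ`-vertices of the path -/
def Bs (L : List (V × V)) : Finset V := (L.map Prod.fst).toFinset

/-- valid paths; distinctness of the `a`'s is a consequence of the girth condition -/
def Pth (N : V → Finset V) (γ : Finset V) (a₀ : V) : List (V × V) → Prop
  | [] => True
  | (b, a) :: L => Pth N γ a₀ L ∧ b ∈ γ ∧ b ∉ Bs L ∧ lastA a₀ L ∈ N b ∧ a ∈ N b ∧ a ≠ lastA a₀ L

/-- the list of all vertices of the path, in the order `a_j, b_j, …, a₁, b₁, a₀` -/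
def vts (a₀ : V) : List (V × V) → List V
  | [] => [a₀]
  | (b, a) :: L => a :: b :: vts a₀ L

/-- the neighbours which have been removed from `Phi b'` during the expansion; `fl = true` if the
first vertex `a₀` has been expanded, too -/
def rem (N : V → Finset V) (o : V → ℕ) (fl : Bool) (a₀ : V) (b' : V) :
    List (V × V) → Finset V
  | [] => ∅
  | (b, _) :: L => rem N o fl a₀ b' L ∪
      (if (L ≠ [] ∨ fl = true) ∧ lastA a₀ L ∈ N b' ∧ o b < o b' then {lastA a₀ L} else ∅)

end

section

variable {V : Type*} [Fintype V] [DecidableEq V] {Ω : Type*} [MeasurableSpace Ω]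

/-- the decoration of the path vertex `b` between `a'` and `a` -/
noncomputable def Rdec (U : Sym2 Ω → ℝ) (N : V → Finset V) (o : V → ℕ) (b a' a : V)
    (z : V → Ω) : ℝ :=
  ∏ c ∈ ((N b).erase a').filter (fun c => o c < o a), (1 + U s(z c, z b))

/-- the path factors with the decorations of the `b`'s -/
noncomputable def core (U : Sym2 Ω → ℝ) (N : V → Finset V) (o : V → ℕ) (a₀ : V) :
    List (V × V) → (V → Ω) → ℝ
  | [], _ => 1
  | (b, a) :: L, z => U s(z (lastA a₀ L), z b) * U s(z b, z a) * Rdec U N o b (lastA a₀ L) a z *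
      core U N o a₀ L z

/-- the integrand attached to a path -/
noncomputable def JJ (μ : Measure Ω) (U : Sym2 Ω → ℝ) (N : V → Finset V) (o : V → ℕ) (fl : Bool)
    (γ : Finset V) (a₀ : V) (L : List (V × V)) (z : V → Ω) : ℝ :=
  core U N o a₀ L z * ∏ b ∈ γ \ Bs L, Phi μ U N (rem N o fl a₀ b L) b z

end

end Vale.Agent.P050.Dense
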